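import Vale.Agent.P284.H752.K8.D2

/-!
# P284 (helper752), K8 (D): the pairing `|⟨τ, S s₀⟩|² ≤ C₀ ∫ A(τ)`
-/

open scoped Manifold ContDiff Topology ComplexConjugate ComplexOrder ENNReal InnerProductSpace
open Filter Set Metric MeasureTheory

noncomputable section

namespace Vale.Agent.P284.H752.K8

open Vale.Agent.P272.K Vale.Agent.P284.H573 Vale.Agent.P284.H395 Vale.Agent.P284.H998
  Vale.Agent.P284.H998.U Vale.Agent.P284.H553.LB Vale.Agent.P284.H608.K Vale.Agent.P284.H837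
  Vale.Agent.P284.H894 Vale.Agent.P284.H894.G Vale.Agent.P284.H553.K8 Vale.Agent.P284.H619.K

section
variable {n r₁ m : ℕ} {X E : Type} [TopologicalSpace X] [ChartedSpace (Cm n) X]
  [TopologicalSpace E] [MeasurableSpace X] {H : Type} [NormedAddCommGroup H]
  [InnerProductSpace ℂ H] {p : E → X} {v : E → Chart n X → (Fin (r₁ + 1) → Cm n) → H}
  {h : Chart n X → Cm n → Matrix (Fin n) (Fin n) ℂ} {j : ℕ} {K : KA n (MZ p v)}
  (L : KL p v h j K) {γ : Cm (r₁ + 1) → H} {b₀ : Cm (r₁ + 1)} {r : ℝ} {N : Set X}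
  {β : X → Cm (r₁ + 1)} {x₀ : X}

theorem S_s0 (hv : HForm n (r₁ + 1) m p H v) (hL : Lf m p v γ b₀ r N β x₀) (ℓ₀ : H →L[ℂ] ℂ)
    {f : Cm (r₁ + 1) → ℂ} (hf : ContDiff ℝ ∞ f) {i : K.I} {x : X} (hx : x ∈ L.U i)
    (hxN : x ∈ N) : K.S (L.s0 m γ ℓ₀ N β f) i (L.e i x) =
      - H608.K.Lam (K.w i (L.e i x)) fun c =>
        conj (tht f (fun z => β ((L.e i).symm z)) (L.e i x) c) •
        (Pf L γ ℓ₀ β m i (L.e i x) • dF (fun z => β ((L.e i).symm z)) (L.e i x)) := by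
  unfold KA.S SL
  rw [if_pos (L.mem_tgt hx)]
  congr 2
  funext c
  exact dbV_s0 L hv hL ℓ₀ hf hx hxN c

theorem Lam_zero (w : Matrix (Fin n) (Fin n) ℂ) {q : ℕ} :
    H608.K.Lam w (fun _ => (0 : Af n (q + 1))) = 0 := by
  unfold H608.K.Lam
  ext u
  rw [ContinuousAlternatingMap.sum_apply]
  refine Finset.sum_eq_zero fun a _ => ?_
  rw [ContinuousAlternatingMap.sum_apply]
  refine Finset.sum_eq_zero fun b _ => ?_
  exact mul_zero _

theorem neg_zero' {q : ℕ} : -(0 : Af n q) = 0 := by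
  ext u
  exact neg_zero

theorem S_s0_off (hL : Lf m p v γ b₀ r N β x₀) (ℓ₀ : H →L[ℂ] ℂ)
    {f : Cm (r₁ + 1) → ℂ} (hf : HasCompactSupport f) (hfr : tsupport f ⊆ ball b₀ r)
    {i : K.I} {x : X} (hx : x ∈ L.U i)
    (hxN : x ∉ N) : K.S (L.s0 m γ ℓ₀ N β f) i (L.e i x) = 0 := by
  unfold KA.S SL
  rw [if_pos (L.mem_tgt hx)]
  have h1 : (fun b => dbV b (L.s0 m γ ℓ₀ N β f i) (L.e i x)) = fun _ => 0 :=
    funext fun c => dbV_s0_off L hL ℓ₀ hf hfr hx hxN c
  rw [h1, Lam_zero, neg_zero']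

theorem hn_neg_right' (w : Matrix (Fin n) (Fin n) ℂ) {q : ℕ} (A B : Af n q) :
    hn w A (-B) = -hn w A B := by
  have h1 : -B = (-1 : ℂ) • B := by
    ext u
    exact (neg_one_mul _).symm
  rw [h1, hn_smul_right]
  simp

theorem prod_le {ex Y a b a' b' : ℝ} (hex : 0 < ex) (h1 : Y ≤ a * b) (ha : a ≤ a')
    (hb : ex * b ≤ b') (ha0 : (0 : ℂ).re ≤ a) (hb0 : (0 : ℂ).re ≤ b) :
    ex * ex * Y ≤ (ex * a') * b' := by
  have ha1 : 0 ≤ a := ha0
  have hb1 : 0 ≤ b := hb0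
  calc ex * ex * Y ≤ ex * ex * (a * b) := mul_le_mul_of_nonneg_left h1 (by positivity)
    _ = (ex * a) * (ex * b) := by ring
    _ ≤ (ex * a') * b' := mul_le_mul (mul_le_mul_of_nonneg_left ha hex.le) hb (by positivity)
        (mul_nonneg hex.le (ha1.trans ha))

variable [IsManifold 𝓘(ℂ, Cm n) ω X]

/-- the pointwise estimate -/
theorem pt_le (hLi : Line n p v (Zs p v)) (hv : HForm n (r₁ + 1) m p H v)
    (hL : Lf m p v γ b₀ r N β x₀) (hh : KOff (Zs p v) h) (ℓ₀ : H →L[ℂ] ℂ)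
    {f : Cm (r₁ + 1) → ℂ} (hf : ContDiff ℝ ∞ f) {i : K.I} {x : X} (hx : x ∈ L.U i)
    (hxN : x ∈ N) {c D Q : ℝ} (hc : 0 < c)
    (hρ : (cHess (K.φ i) (L.e i x) - (c : ℂ) •
      H619.K.sq (tL (fderiv ℂ (fun z => β ((L.e i).symm z)) (L.e i x)))).PosSemidef)
    (hD : ∑ l, ‖dzb l f (β x)‖ ^ 2 ≤ D) (hQ : rat γ ℓ₀ (β x) ≤ Q) (τ : Af n r₁) :
    ‖(Real.exp (-K.φ i (L.e i x)) : ℂ) * hn (K.w i (L.e i x)) τ
      (K.S (L.s0 m γ ℓ₀ N β f) i (L.e i x))‖ ^ 2 ≤
      (D / c * (Real.exp (-K.φ i (L.e i x)) *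
        (Ad (K.w i (L.e i x)) (cHess (K.φ i) (L.e i x)) τ).re)) * (Q ^ j * mF h β x) := by
  have hat := L.atU hx
  have hsymm : (L.e i).symm (L.e i x) = x := (L.e i).left_inv hat.2
  have hwe : K.w i (L.e i x) = h (L.e i) (L.e i x) := L.w i _ (L.mem_tgt hx)
  have hw : (K.w i (L.e i x)).PosDef := K.wpos i _ (L.mem_tgt hx)
  rw [S_s0 L hv hL ℓ₀ hf hx hxN, hn_neg_right', hn_wd hw, mul_neg, norm_neg, norm_mul, mul_pow]
  set ex := Real.exp (-K.φ i (L.e i x)) with hex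
  have hex0 : 0 < ex := Real.exp_pos _
  have h0 : ‖(ex : ℂ)‖ ^ 2 = ex * ex := by
    rw [Complex.norm_real, Real.norm_of_nonneg hex0.le, _root_.sq]
  rw [h0]
  have h1 := hn_cs hw (wd (tht f (fun z => β ((L.e i).symm z)) (L.e i x)) τ)
    (Pf L γ ℓ₀ β m i (L.e i x) • dF (fun z => β ((L.e i).symm z)) (L.e i x))
  have h2 : (hn (K.w i (L.e i x)) (wd (tht f (fun z => β ((L.e i).symm z)) (L.e i x)) τ)
      (wd (tht f (fun z => β ((L.e i).symm z)) (L.e i x)) τ)).re ≤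
      D / c * (Ad (K.w i (L.e i x)) (cHess (K.φ i) (L.e i x)) τ).re := by
    refine wd_le hw hc hρ ?_ τ
    rw [hsymm]
    exact hD
  have h3 : ex * (hn (K.w i (L.e i x))
      (Pf L γ ℓ₀ β m i (L.e i x) • dF (fun z => β ((L.e i).symm z)) (L.e i x))
      (Pf L γ ℓ₀ β m i (L.e i x) • dF (fun z => β ((L.e i).symm z)) (L.e i x))).re =
      rat γ ℓ₀ (β x) ^ j * mF h β x := by
    rw [hn_smul_left, hn_smul_right, ← mul_assoc, Complex.mul_conj', ← Complex.ofReal_pow,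
      Complex.re_ofReal_mul, ← mul_assoc, norm_Pf L hLi hv hL ℓ₀ hx hxN, mF_eq hh hL hxN hat, hwe]
  have hm0 : 0 ≤ mF h β x := by
    rw [mF_eq hh hL hxN hat]
    exact (Complex.le_def.mp (hn_self_nonneg (hwe ▸ hw) _)).1
  have hr0 : 0 ≤ rat γ ℓ₀ (β x) := by unfold rat; positivity
  have h4 : ex * (hn (K.w i (L.e i x))
      (Pf L γ ℓ₀ β m i (L.e i x) • dF (fun z => β ((L.e i).symm z)) (L.e i x))
      (Pf L γ ℓ₀ β m i (L.e i x) • dF (fun z => β ((L.e i).symm z)) (L.e i x))).re ≤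
      Q ^ j * mF h β x := by
    rw [h3]
    exact mul_le_mul_of_nonneg_right (pow_le_pow_left₀ hr0 hQ j) hm0
  have h5 := (Complex.le_def.mp (hn_self_nonneg hw
    (wd (tht f (fun z => β ((L.e i).symm z)) (L.e i x)) τ))).1
  have h6 := (Complex.le_def.mp (hn_self_nonneg hw
    (Pf L γ ℓ₀ β m i (L.e i x) • dF (fun z => β ((L.e i).symm z)) (L.e i x)))).1
  have h7 := prod_le hex0 h1 h2 h4 h5 h6
  rwa [mul_left_comm ex (D / c)] at h7

end

/-- **(D)** -/
theorem dStmt : H553.K8.DStmt := by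
  intro n r₁ m X _ _ _ _ _ _ _ w h ρ E _ p H _ _ _ v hyp γ b₀ r N β x₀ hL f hf hfc hfr ℓ₀ K' hK'
    hK'r hdz c hc hρ D hD0 hD Q hQ0 hQ j hj K L k3 hφ μK hμ0 hμ τ hτ
  have hj0 : (0 : ℝ) < j := by exact_mod_cast hj
  have hjc : (0 : ℝ) < j * c := mul_pos hj0 hc
  -- the densities
  set S : Set (MZ p v) := {x : MZ p v | x.1 ∈ N ∧ β x.1 ∈ K'} with hS
  have hsrc : ∀ x : MZ p v, x.1 ∈ L.U (K.ix x) := by
    intro x
    have h1 : x ∈ (K.e (K.ix x)).source := (K.cover x).choose_spec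
    rw [L.src] at h1
    exact h1
  have hAd : ∀ x : MZ p v, 0 ≤ K.dA τ x := by
    intro x
    unfold KA.dA
    have hz := L.mem_tgt (hsrc x)
    have h1 : K.e (K.ix x) x = L.e (K.ix x) x.1 := L.app _ _
    rw [h1, hφ _ _ hz]
    refine mul_nonneg (Real.exp_pos _).le (Complex.le_def.mp (Ad_nonneg (K.wpos _ _ hz) ?_ _)).1
    have h2 := hyp.rho.psd (L.e (K.ix x)) x.1 (L.atU (hsrc x)) x.2
    exact h2.smul (by positivity)
  have hpt : ∀ x : MZ p v, ‖K.dn τ (K.S (L.s0 m γ ℓ₀ N β f)) x‖ ^ 2 ≤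
      (D / (j * c) * K.dA τ x) * S.indicator (fun x => Q ^ j * mF h β x.1) x := by
    intro x
    have hx := hsrc x
    have hz := L.mem_tgt hx
    have he : K.e (K.ix x) x = L.e (K.ix x) x.1 := L.app _ _
    by_cases hxN : x.1 ∈ N
    · have hat := L.atU hx
      have hsymm : (L.e (K.ix x)).symm (L.e (K.ix x) x.1) = x.1 := (L.e _).left_inv hat.2
      by_cases hxK : β x.1 ∈ K'
      · rw [Set.indicator_of_mem (show x ∈ S from ⟨hxN, hxK⟩)]
        unfold KA.dn KA.dA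
        rw [he]
        refine pt_le L hyp.line hyp.form hL hyp.koff ℓ₀ hf hx hxN hjc ?_ (hD _ hxK) (hQ _ hxK) _
        have h1 := (hρ x.1 hxN hxK (L.e (K.ix x)) hat).smul (a := (j : ℂ)) (by positivity)
        rw [hφ _ _ hz]
        rw [smul_sub, smul_smul] at h1
        push_cast
        exact h1
      · rw [Set.indicator_of_notMem (fun h' : x ∈ S => hxK h'.2), mul_zero]
        have h1 : K.dn τ (K.S (L.s0 m γ ℓ₀ N β f)) x = 0 := by
          unfold KA.dn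
          rw [he, S_s0 L hyp.form hL ℓ₀ hf hx hxN]
          have h2 : tht f (fun z => β ((L.e (K.ix x)).symm z)) (L.e (K.ix x) x.1) = fun _ => 0 := by
            funext c
            unfold tht
            refine Finset.sum_eq_zero fun l _ => ?_
            simp only [hsymm]
            rw [hdz _ hxK l, map_zero, zero_mul]
          rw [h2]
          have h3 : (fun c : Fin n => conj ((fun _ => (0 : ℂ)) c) •
              (Pf L γ ℓ₀ β m (K.ix x) (L.e (K.ix x) x.1) •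
                dF (fun z => β ((L.e (K.ix x)).symm z)) (L.e (K.ix x) x.1))) =
              fun _ : Fin n => (0 : Af n (r₁ + 1)) := by
            funext c
            ext u
            simp
          rw [h3, Lam_zero, neg_zero', hn_zero_right, mul_zero]
        rw [h1]
        simp
    · rw [Set.indicator_of_notMem (fun h' : x ∈ S => hxN h'.1), mul_zero]
      have h1 : K.dn τ (K.S (L.s0 m γ ℓ₀ N β f)) x = 0 := by
        unfold KA.dn
        rw [he, S_s0_off L hL ℓ₀ hfc hfr hx hxN, hn_zero_right, mul_zero]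
      rw [h1]
      simp
  have hmF : ∀ x ∈ S, 0 ≤ mF h β x.1 := by
    intro x hx
    have hat := L.atU (hsrc x)
    rw [mF_eq hyp.koff hL hx.1 hat]
    exact (Complex.le_def.mp (hn_self_nonneg (hyp.koff.posDef _ _ hat x.2) _)).1
  have hint : Integrable (fun x => D / (j * c) * K.dA τ x) K.μ := (k3.intT r₁ τ hτ).2.const_mul _
  have hB : ∫⁻ x in S, ENNReal.ofReal (Q ^ j * mF h β x.1) ∂K.μ ≤ ENNReal.ofReal (Q ^ j * μK) := by
    calc ∫⁻ x in S, ENNReal.ofReal (Q ^ j * mF h β x.1) ∂K.μ =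
        ∫⁻ x in S, ENNReal.ofReal (Q ^ j) * ENNReal.ofReal (mF h β x.1) ∂K.μ := by
          refine lintegral_congr fun x => ?_
          rw [ENNReal.ofReal_mul (by positivity)]
      _ = ENNReal.ofReal (Q ^ j) * ∫⁻ x in S, ENNReal.ofReal (mF h β x.1) ∂K.μ :=
          lintegral_const_mul' _ _ ENNReal.ofReal_ne_top
      _ ≤ ENNReal.ofReal (Q ^ j) * ENNReal.ofReal μK := mul_le_mul_right hμ _
      _ = _ := by rw [ENNReal.ofReal_mul (by positivity)]
  have hfin := int_cs (μ := K.μ) (g := K.dn τ (K.S (L.s0 m γ ℓ₀ N β f)))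
    (A := fun x => D / (j * c) * K.dA τ x) (B := fun x : MZ p v => Q ^ j * mF h β x.1) (S := S)
    hint (fun x => mul_nonneg (by positivity) (hAd x)) hpt
    (fun x hx => mul_nonneg (by positivity) (hmF x hx)) (Q := Q ^ j * μK) (by positivity) hB
  unfold KA.ip
  refine hfin.trans (le_of_eq ?_)
  rw [integral_const_mul]
  ring

end Vale.Agent.P284.H752.K8
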