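import Vale.Agent.P284.H205.K.Wd
import Vale.Agent.P284.H619.K.AlgD

/-!
# P284 (helper752), K8 (D), part 1: `∂̄` of a product, pointwise estimates
-/

open scoped ContDiff Topology ComplexConjugate ComplexOrder ENNReal
open Filter Set MeasureTheory

noncomputable section

namespace Vale.Agent.P284.H752.K8

open Vale.Agent.P272.K Vale.Agent.P284.H608.K Vale.Agent.P284.H205.K Vale.Agent.P284.H619.K

variable {n R p : ℕ}

/-- the conjugate of a linear map -/
def cjL2 (L : Cm n →L[ℂ] Cm R) : Cm n →L[ℂ] Cm R where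
  toFun v := cjm R (L (cjm n v))
  map_add' u v := by simp
  map_smul' c v := by
    rw [cjm_smul, map_smul, cjm_smul]; simp
  cont := (cjm R).continuous.comp (L.continuous.comp (cjm n).continuous)

@[simp] theorem cjL2_apply (L : Cm n →L[ℂ] Cm R) (v : Cm n) : cjL2 L v = cjm R (L (cjm n v)) := rfl

theorem hasW_comp {V : Type} [NormedAddCommGroup V] [NormedSpace ℂ V] {f : Cm R → V}
    {A B : Cm R →L[ℂ] V} {b : Cm n → Cm R} {L : Cm n →L[ℂ] Cm R} {z : Cm n} (h : HasW f A B (b z))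
    (hb : HasFDerivAt b L z) : HasW (fun y => f (b y)) (A.comp L) (B.comp (cjL2 L)) z := by
  have := HasFDerivAt.comp z h (hb.restrictScalars ℝ)
  refine HasFDerivAt.congr_fderiv this ?_
  ext v; simp

theorem dbV_eq_dzb (f : Cm R → ℂ) (l : Fin R) (z : Cm R) : dbV l f z = dzb l f z := by
  unfold dbV dzb
  rw [smul_eq_mul, smul_eq_mul]
  ring

/-- the `(1, 0)`-form `Σ conj (∂f/∂b̄_l) db_l` -/
def tht (f : Cm R → ℂ) (b : Cm n → Cm R) (z : Cm n) (c : Fin n) : ℂ :=
  ∑ l, conj (dzb l f (b z)) * tL (fderiv ℂ b z) l c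

theorem hasW_f {f : Cm R → ℂ} {b : Cm n → Cm R} {z : Cm n} (hf : DifferentiableAt ℝ f (b z))
    (hb : DifferentiableAt ℂ b z) : HasW (fun y => f (b y)) ((pL f (b z)).comp (fderiv ℂ b z))
      ((pB f (b z)).comp (cjL2 (fderiv ℂ b z))) z :=
  hasW_comp (hasW_of_diff hf) hb.hasFDerivAt

theorem pB_single (f : Cm R → ℂ) (b : Cm n → Cm R) (z : Cm n) (c : Fin n) :
    ((pB f (b z)).comp (cjL2 (fderiv ℂ b z))) (Pi.single c 1) = conj (tht f b z c) := by
  rw [ContinuousLinearMap.comp_apply, cjL2_apply, cjm_single, map_one, pB_apply]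
  unfold tht tL
  rw [map_sum]
  refine Finset.sum_congr rfl fun l _ => ?_
  rw [cjm_apply, map_mul, Complex.conj_conj, dbV_eq_dzb, smul_eq_mul, mul_comm]

/-- `∂̄ (f(b) P σ) = conj θ ⊗ P σ` for holomorphic `P`, `σ` -/
theorem dbV_s {f : Cm R → ℂ} {b : Cm n → Cm R} {z : Cm n} {P : Cm n → ℂ} {σ : Cm n → Af n p}
    (hf : DifferentiableAt ℝ f (b z)) (hb : DifferentiableAt ℂ b z) (hP : DifferentiableAt ℂ P z)
    (hσ : DifferentiableAt ℂ σ z) (c : Fin n) :
    dbV c (fun y => (f (b y) * P y) • σ y) z = conj (tht f b z c) • (P z • σ z) := by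
  have h1 := (hasW_f hf hb).smul (HasW.of_holo hP.hasFDerivAt)
  have h2 := h1.smul (HasW.of_holo hσ.hasFDerivAt)
  have h3 : HasW (fun y => (f (b y) * P y) • σ y) _ _ z := h2
  rw [h3.dbV c]
  ext v
  simp only [ContinuousLinearMap.smulRight_apply, smul_zero, add_zero,
    ContinuousAlternatingMap.smul_apply, pB_single, smul_eq_mul]
  ring

theorem wd_sum {ι : Type*} [Fintype ι] (a : ι → ℂ) (θ : ι → Fin n → ℂ) (τ : Af n p) :
    wd (fun c => ∑ l, a l * θ l c) τ = ∑ l, a l • wd (θ l) τ := by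
  unfold wd
  ext u
  simp only [ContinuousAlternatingMap.sum_apply, ContinuousAlternatingMap.smul_apply,
    smul_eq_mul, Finset.mul_sum, Finset.sum_mul]
  rw [Finset.sum_comm]
  refine Finset.sum_congr rfl fun l _ => Finset.sum_congr rfl fun c _ => ?_
  ring

/-- Cauchy–Schwarz for a combination -/
theorem hn_sum_le {w : Matrix (Fin n) (Fin n) ℂ} (hw : w.PosDef) {ι : Type*} [Fintype ι]
    (a : ι → ℂ) (A : ι → Af n p) :
    (hn w (∑ l, a l • A l) (∑ l, a l • A l)).re ≤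
      (∑ l, ‖a l‖ ^ 2) * ∑ l, (hn w (A l) (A l)).re := by
  obtain ⟨P, -, hP⟩ := exists_frame hw
  have h1 : ∀ κ : Fin p → Fin n, ‖(∑ l, a l • A l) fun i => fv P (κ i)‖ ^ 2 ≤
      (∑ l, ‖a l‖ ^ 2) * ∑ l, ‖A l fun i => fv P (κ i)‖ ^ 2 := by
    intro κ
    have h2 := sum_cs Finset.univ a fun l => conj (A l fun i => fv P (κ i))
    simp only [Complex.conj_conj, RCLike.norm_conj] at h2
    refine le_trans (le_of_eq ?_) h2
    congr 2
    rw [ContinuousAlternatingMap.sum_apply]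
    rfl
  rw [hn_self_re hP]
  simp only [hn_self_re hP (A _)]
  rw [← Finset.mul_sum, Finset.sum_comm, mul_left_comm]
  refine mul_le_mul_of_nonneg_left ?_ (by positivity)
  rw [Finset.mul_sum]
  exact Finset.sum_le_sum fun κ _ => h1 κ

/-- the estimate of `θ ∧ τ` by the curvature -/
theorem wd_le {w ρ : Matrix (Fin n) (Fin n) ℂ} (hw : w.PosDef) {f : Cm R → ℂ} {b : Cm n → Cm R}
    {z : Cm n} {c D : ℝ} (hc : 0 < c) (hρ : (ρ - (c : ℂ) • H619.K.sq (tL (fderiv ℂ b z))).PosSemidef)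
    (hD : ∑ l, ‖dzb l f (b z)‖ ^ 2 ≤ D) (τ : Af n p) :
    (hn w (wd (tht f b z) τ) (wd (tht f b z) τ)).re ≤ D / c * (Ad w ρ τ).re := by
  have h1 := hn_sum_le hw (fun l => conj (dzb l f (b z))) fun l => wd (tL (fderiv ℂ b z) l) τ
  have h2 : wd (tht f b z) τ = ∑ l, conj (dzb l f (b z)) • wd (tL (fderiv ℂ b z) l) τ :=
    wd_sum _ _ τ
  rw [h2]
  have h3 := hn_lam_le hw hρ τ
  simp only [RCLike.norm_conj] at h1
  have h4 : 0 ≤ ∑ l, (hn w (wd (tL (fderiv ℂ b z) l) τ) (wd (tL (fderiv ℂ b z) l) τ)).re :=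
    Finset.sum_nonneg fun l _ => (Complex.le_def.mp (hn_self_nonneg hw _)).1
  have hD0 : 0 ≤ D := le_trans (Finset.sum_nonneg fun l _ => by positivity) hD
  refine h1.trans ((mul_le_mul_of_nonneg_right hD h4).trans ?_)
  rw [div_mul_eq_mul_div, mul_div_assoc]
  refine mul_le_mul_of_nonneg_left ?_ hD0
  rw [le_div_iff₀ hc]
  linarith

/-- a quadratic inequality -/
theorem sq_le_of_forall {X P Q : ℝ} (hX : 0 ≤ X) (hP : 0 ≤ P) (hQ : 0 ≤ Q)
    (h : ∀ t : ℝ, 0 < t → X ≤ t / 2 * P + 1 / (2 * t) * Q) : X ^ 2 ≤ P * Q := by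
  have h1 : ∀ t : ℝ, 0 ≤ P * (t * t) + (-2 * X) * t + Q := by
    intro t
    rcases le_or_gt t 0 with ht | ht
    · have : 0 ≤ X * (-t) := mul_nonneg hX (by linarith)
      nlinarith [mul_nonneg hP (mul_self_nonneg t)]
    · have h2 := h t ht
      have h3 : t / 2 * P + 1 / (2 * t) * Q = (P * (t * t) + Q) / (2 * t) := by
        field_simp
      rw [h3, le_div_iff₀ (by positivity)] at h2
      linarith
  have h2 := discrim_le_zero h1
  unfold discrim at h2
  linarith

/-- Cauchy–Schwarz under the integral -/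
theorem int_cs {M : Type} [MeasurableSpace M] {μ : Measure M} {g : M → ℂ} {A : M → ℝ} {B : M → ℝ}
    {S : Set M} (hA : Integrable A μ) (hA0 : ∀ x, 0 ≤ A x)
    (hg : ∀ x, ‖g x‖ ^ 2 ≤ A x * S.indicator B x) (hB0 : ∀ x ∈ S, 0 ≤ B x) {Q : ℝ} (hQ : 0 ≤ Q)
    (hB : ∫⁻ x in S, ENNReal.ofReal (B x) ∂μ ≤ ENNReal.ofReal Q) :
    ‖∫ x, g x ∂μ‖ ^ 2 ≤ (∫ x, A x ∂μ) * Q := by
  have hI0 : 0 ≤ ∫ x, A x ∂μ := integral_nonneg fun x => hA0 x
  refine sq_le_of_forall (norm_nonneg _) hI0 hQ fun t ht => ?_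
  have hBi : ∀ x, 0 ≤ S.indicator B x := fun x => Set.indicator_nonneg hB0 x
  have h1 : ∀ x, ‖g x‖ ≤ t / 2 * A x + 1 / (2 * t) * S.indicator B x := by
    intro x
    have h2 := hg x
    have h3 : (‖g x‖) ^ 2 ≤ (t / 2 * A x + 1 / (2 * t) * S.indicator B x) ^ 2 := by
      refine h2.trans ?_
      have h4 : (t / 2 * A x + 1 / (2 * t) * S.indicator B x) ^ 2 - A x * S.indicator B x =
          (t / 2 * A x - 1 / (2 * t) * S.indicator B x) ^ 2 := by
        field_simp
        ring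
      nlinarith [sq_nonneg (t / 2 * A x - 1 / (2 * t) * S.indicator B x)]
    have h5 : 0 ≤ t / 2 * A x + 1 / (2 * t) * S.indicator B x := by
      have := hA0 x; have := hBi x; positivity
    exact (pow_le_pow_iff_left₀ (norm_nonneg _) h5 two_ne_zero).1 h3
  have h6 : ‖∫ x, g x ∂μ‖ₑ ≤ ENNReal.ofReal (t / 2 * (∫ x, A x ∂μ) + 1 / (2 * t) * Q) := by
    calc ‖∫ x, g x ∂μ‖ₑ ≤ ∫⁻ x, ‖g x‖ₑ ∂μ := enorm_integral_le_lintegral_enorm _
      _ ≤ ∫⁻ x, (ENNReal.ofReal (t / 2 * A x) +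
          ENNReal.ofReal (1 / (2 * t)) * S.indicator (fun x => ENNReal.ofReal (B x)) x) ∂μ := by
          refine lintegral_mono fun x => ?_
          rw [← ofReal_norm]
          refine (ENNReal.ofReal_le_ofReal (h1 x)).trans ?_
          refine (ENNReal.ofReal_add_le).trans (add_le_add le_rfl ?_)
          rw [ENNReal.ofReal_mul (by positivity)]
          refine mul_le_mul_right ?_ _
          by_cases hx : x ∈ S
          · rw [Set.indicator_of_mem hx, Set.indicator_of_mem hx]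
          · rw [Set.indicator_of_notMem hx, Set.indicator_of_notMem hx, ENNReal.ofReal_zero]
      _ = (∫⁻ x, ENNReal.ofReal (t / 2 * A x) ∂μ) +
          ∫⁻ x, ENNReal.ofReal (1 / (2 * t)) *
            S.indicator (fun x => ENNReal.ofReal (B x)) x ∂μ :=
          lintegral_add_left' ((hA.const_mul (t / 2)).aemeasurable.ennreal_ofReal) _
      _ ≤ ENNReal.ofReal (t / 2 * ∫ x, A x ∂μ) + ENNReal.ofReal (1 / (2 * t)) *
          ENNReal.ofReal Q := by
          refine add_le_add ?_ ?_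
          · rw [← integral_const_mul, ofReal_integral_eq_lintegral_ofReal (hA.const_mul _)
              (Eventually.of_forall fun x => by have := hA0 x; positivity)]
          · rw [lintegral_const_mul' _ _ ENNReal.ofReal_ne_top]
            refine mul_le_mul_right ?_ _
            exact (lintegral_indicator_le _ _).trans hB
      _ = _ := by
          rw [← ENNReal.ofReal_mul (by positivity), ← ENNReal.ofReal_add
            (by have := hI0; positivity) (by positivity)]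
  rw [← ofReal_norm] at h6
  refine (ENNReal.ofReal_le_ofReal_iff ?_).1 h6
  positivity

end Vale.Agent.P284.H752.K8
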