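import Vale.Agent.P284.H553.K8.T
import Vale.Agent.P284.H619.K.AlgE
import Vale.Agent.P284.H752.K8.D1
import Vale.Agent.P284.H752.K1

/-!
# P284 (helper752), K8 (D), part 2: the section `s₀` near a point
-/

open scoped Manifold ContDiff Topology ComplexConjugate ComplexOrder ENNReal InnerProductSpace
open Filter Set Metric MeasureTheory

noncomputable section

namespace Vale.Agent.P284.H752.K8

open Vale.Agent.P272.K Vale.Agent.P284.H573 Vale.Agent.P284.H395 Vale.Agent.P284.H998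
  Vale.Agent.P284.H998.U Vale.Agent.P284.H553.LB Vale.Agent.P284.H608.K Vale.Agent.P284.H837
  Vale.Agent.P284.H894 Vale.Agent.P284.H894.G Vale.Agent.P284.H553.K8 Vale.Agent.P284.H619.K

section
variable {n R m : ℕ} {X E : Type} [TopologicalSpace X] [ChartedSpace (Cm n) X] [TopologicalSpace E]
  [MeasurableSpace X] {H : Type} [NormedAddCommGroup H] [InnerProductSpace ℂ H]
  {p : E → X} {v : E → Chart n X → (Fin R → Cm n) → H}
  {h : Chart n X → Cm n → Matrix (Fin n) (Fin n) ℂ} {j : ℕ} {K : KA n (MZ p v)}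
  (L : KL p v h j K)

/-- the value of `v` on the section `τ i` is analytic -/
theorem an_v (hv : HForm n R m p H v) {i : K.I} {x : X} (hx : x ∈ L.U i) (ξ : Fin R → Cm n) :
    AnalyticAt ℂ (fun z => v (L.τ i ((L.e i).symm z)) (L.e i) ξ) (L.e i x) := by
  have hat := L.atU hx
  have hτ := L.hτ i x hx
  obtain ⟨F, hF, hev⟩ := hv.hol (L.τ i x) (L.e i) (hτ.symm ▸ hat)
  rw [hτ] at hF
  have h1 : AnalyticAt ℂ (fun z => F (z, ξ)) (L.e i x) :=
    AnalyticAt.fun_comp (g := F) (f := fun z => (z, ξ)) (hF ξ)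
      (analyticAt_id.prod analyticAt_const)
  refine h1.congr ?_
  have hsymm : (L.e i).symm (L.e i x) = x := (L.e i).left_inv hat.2
  have hc : ContinuousAt (fun z => L.τ i ((L.e i).symm z)) (L.e i x) := by
    refine ContinuousAt.comp (g := L.τ i) (f := (L.e i).symm) ?_
      ((L.e i).symm.continuousAt ((L.e i).map_source hat.2))
    rw [hsymm]
    exact (L.hτc i _ hx).continuousAt ((L.hU i).mem_nhds hx)
  have h2 : ∀ᶠ z in 𝓝 (L.e i x), ∀ ξ, v (L.τ i ((L.e i).symm z)) (L.e i) ξ =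
      F (L.e i (p (L.τ i ((L.e i).symm z))), ξ) := by
    have hc' : Tendsto (fun z => L.τ i ((L.e i).symm z)) (𝓝 (L.e i x)) (𝓝 (L.τ i x)) := by
      have h0 := hc.tendsto
      simp only [hsymm] at h0
      exact h0
    exact hc'.eventually hev
  have h3 : ∀ᶠ z in 𝓝 (L.e i x), z ∈ (L.e i).target ∧ (L.e i).symm z ∈ L.U i := by
    refine Filter.Eventually.and (show ∀ᶠ z in 𝓝 (L.e i x), z ∈ (L.e i).target from
      (L.e i).open_target.mem_nhds ((L.e i).map_source hat.2)) ?_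
    refine ((L.e i).symm.continuousAt ((L.e i).map_source hat.2)).eventually_mem ?_
    rw [hsymm]
    exact (L.hU i).mem_nhds hx
  filter_upwards [h2, h3] with z hz1 hz2
  rw [hz1 ξ, L.hτ i _ hz2.2, (L.e i).right_inv hz2.1]

/-- the function `P` with `s₀ = f(β) P dF β` -/
def Pf (γ : Cm R → H) (ℓ₀ : H →L[ℂ] ℂ) (β : X → Cm R) (m : ℕ) (i : K.I) (z : Cm n) : ℂ :=
  (ℓ₀ (γ (β ((L.e i).symm z))) *
      (DM (fun z => β ((L.e i).symm z)) z (L.ξ i)).det ^ m /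
        L.ℓ i (v (L.τ i ((L.e i).symm z)) (L.e i) (L.ξ i))) ^ j

variable {γ : Cm R → H} {b₀ : Cm R} {r : ℝ} {N : Set X} {β : X → Cm R} {x₀ : X}

theorem tgt_ev {i : K.I} {x : X} (hx : x ∈ L.U i) : ∀ᶠ z in 𝓝 (L.e i x), z ∈ (K.e i).target :=
  (K.e i).open_target.mem_nhds (L.mem_tgt hx)

theorem s0_ev (hN : IsOpen N) (ℓ₀ : H →L[ℂ] ℂ) (f : Cm R → ℂ) {i : K.I} {x : X} (hx : x ∈ L.U i)
    (hxN : x ∈ N) : L.s0 m γ ℓ₀ N β f i =ᶠ[𝓝 (L.e i x)]
      fun z => (f ((fun z => β ((L.e i).symm z)) z) * Pf L γ ℓ₀ β m i z) •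
        dF (fun z => β ((L.e i).symm z)) z := by
  have hat := L.atU hx
  have hsymm : (L.e i).symm (L.e i x) = x := (L.e i).left_inv hat.2
  have h3 : ∀ᶠ z in 𝓝 (L.e i x), (L.e i).symm z ∈ N := by
    refine ((L.e i).symm.continuousAt ((L.e i).map_source hat.2)).eventually_mem ?_
    rw [hsymm]
    exact hN.mem_nhds hxN
  filter_upwards [tgt_ev L hx, h3] with z h1 h2
  unfold KL.s0
  rw [if_pos ⟨h1, h2⟩]
  rfl

theorem s0_ev_zero (hL : Lf m p v γ b₀ r N β x₀) (ℓ₀ : H →L[ℂ] ℂ) {f : Cm R → ℂ}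
    (hf : HasCompactSupport f) (hfr : tsupport f ⊆ ball b₀ r) {i : K.I} {x : X} (hx : x ∈ L.U i)
    (hxN : x ∉ N) : L.s0 m γ ℓ₀ N β f i =ᶠ[𝓝 (L.e i x)] fun _ => 0 := by
  have hat := L.atU hx
  have hsymm : (L.e i).symm (L.e i x) = x := (L.e i).left_inv hat.2
  have h1 : x ∉ closure {x' ∈ N | β x' ∈ tsupport f} := fun h' =>
    hxN (hL.closed _ hfr hf x (L.hUZ i x hx) h').1
  have h3 : ∀ᶠ z in 𝓝 (L.e i x), (L.e i).symm z ∉ closure {x' ∈ N | β x' ∈ tsupport f} := by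
    exact ((L.e i).symm.continuousAt ((L.e i).map_source hat.2)).eventually_mem
      (s := (closure {x' ∈ N | β x' ∈ tsupport f})ᶜ) (by
        rw [hsymm]
        exact isClosed_closure.isOpen_compl.mem_nhds h1)
  filter_upwards [h3] with z hz
  unfold KL.s0
  split_ifs with hc
  · have h4 : β ((L.e i).symm z) ∉ tsupport f := fun h' => hz (subset_closure ⟨hc.2, h'⟩)
    rw [image_eq_zero_of_notMem_tsupport h4, zero_mul]
    ext u
    exact zero_mul _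
  · rfl

theorem dF_diff {b : Cm n → Cm R} {z : Cm n} (hb : AnalyticAt ℂ b z) :
    DifferentiableAt ℂ (dF b) z := by
  unfold dF
  have h1 : DifferentiableAt ℂ (fderiv ℂ b) z := hb.fderiv.differentiableAt
  have h2 : DifferentiableAt ℂ (fun _ : Cm n => detL R) z := differentiableAt_const _
  exact (h2.hasFDerivAt.continuousAlternatingMapCompContinuousLinearMap
    h1.hasFDerivAt).differentiableAt

theorem Pf_diff (hv : HForm n R m p H v) (hL : Lf m p v γ b₀ r N β x₀) (ℓ₀ : H →L[ℂ] ℂ) {i : K.I}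
    {x : X} (hx : x ∈ L.U i) (hxN : x ∈ N) :
    DifferentiableAt ℂ (Pf L γ ℓ₀ β m i) (L.e i x) := by
  have hat := L.atU hx
  have hsymm : (L.e i).symm (L.e i x) = x := (L.e i).left_inv hat.2
  have hb := hL.an x hxN (L.e i) hat
  have h1 : AnalyticAt ℂ (fun z => ℓ₀ (γ (β ((L.e i).symm z)))) (L.e i x) := by
    have h2 : AnalyticAt ℂ (fun z => γ (β ((L.e i).symm z))) (L.e i x) := by
      refine AnalyticAt.fun_comp (g := γ) (f := fun z => β ((L.e i).symm z)) ?_ hb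
      rw [hsymm]
      exact hL.γan _ (hL.maps x hxN)
    exact AnalyticAt.fun_comp (g := fun u => ℓ₀ u) (ContinuousLinearMap.analyticAt _ _) h2
  have h3 := detDM_an' hb (L.ξ i)
  have h4 : AnalyticAt ℂ (fun z => L.ℓ i (v (L.τ i ((L.e i).symm z)) (L.e i) (L.ξ i)))
      (L.e i x) :=
    AnalyticAt.fun_comp (g := fun u => L.ℓ i u) (ContinuousLinearMap.analyticAt _ _)
      (an_v L hv hx (L.ξ i))
  have h5 : L.ℓ i (v (L.τ i ((L.e i).symm (L.e i x))) (L.e i) (L.ξ i)) ≠ 0 := by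
    rw [hsymm]
    exact L.hne i x hx
  exact (((h1.fun_mul (h3.fun_pow m)).fun_div h4 h5).fun_pow j).differentiableAt

/-- the real smooth function `f` of the analytic map `β`: the `∂̄`-derivatives of `s₀` -/
theorem dbV_s0 (hv : HForm n R m p H v) (hL : Lf m p v γ b₀ r N β x₀) (ℓ₀ : H →L[ℂ] ℂ)
    {f : Cm R → ℂ} (hf : ContDiff ℝ ∞ f) {i : K.I} {x : X} (hx : x ∈ L.U i) (hxN : x ∈ N)
    (c : Fin n) : dbV c (L.s0 m γ ℓ₀ N β f i) (L.e i x) =
      conj (tht f (fun z => β ((L.e i).symm z)) (L.e i x) c) •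
        (Pf L γ ℓ₀ β m i (L.e i x) • dF (fun z => β ((L.e i).symm z)) (L.e i x)) := by
  have h1 := s0_ev (m := m) (γ := γ) (β := β) L hL.isOpen ℓ₀ f hx hxN
  have hb := hL.an x hxN (L.e i) (L.atU hx)
  have h2 : dbV c (L.s0 m γ ℓ₀ N β f i) (L.e i x) =
      dbV c (fun z => (f ((fun z => β ((L.e i).symm z)) z) * Pf L γ ℓ₀ β m i z) •
        dF (fun z => β ((L.e i).symm z)) z) (L.e i x) := by
    unfold dbV
    rw [h1.fderiv_eq]
  rw [h2]
  exact dbV_s (hf.differentiable (by simp)).differentiableAt hb.differentiableAt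
    (Pf_diff L hv hL ℓ₀ hx hxN) (dF_diff hb) c

theorem dbV_s0_off (hL : Lf m p v γ b₀ r N β x₀) (ℓ₀ : H →L[ℂ] ℂ) {f : Cm R → ℂ}
    (hf : HasCompactSupport f) (hfr : tsupport f ⊆ ball b₀ r) {i : K.I} {x : X} (hx : x ∈ L.U i)
    (hxN : x ∉ N) (c : Fin n) : dbV c (L.s0 m γ ℓ₀ N β f i) (L.e i x) = 0 := by
  unfold dbV
  rw [(s0_ev_zero L hL ℓ₀ hf hfr hx hxN).fderiv_eq]
  simp

/-- the norm of `P` -/
theorem norm_Pf (hLi : Line n p v (Zs p v)) (hv : HForm n R m p H v)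
    (hL : Lf m p v γ b₀ r N β x₀) (ℓ₀ : H →L[ℂ] ℂ) {i : K.I} {x : X} (hx : x ∈ L.U i)
    (hxN : x ∈ N) : Real.exp (-K.φ i (L.e i x)) * ‖Pf L γ ℓ₀ β m i (L.e i x)‖ ^ 2 =
      rat γ ℓ₀ (β x) ^ j := by
  have hat := L.atU hx
  have hsymm : (L.e i).symm (L.e i x) = x := (L.e i).left_inv hat.2
  have hne := L.hne i x hx
  obtain ⟨y, hy, hnf⟩ := hL.nf x hxN
  have h1 := (hnf (L.e i) hat).self_of_nhds (L.ξ i)
  rw [hy] at h1
  have h2 : ‖v (L.τ i x) (L.e i) (L.ξ i)‖ = ‖v y (L.e i) (L.ξ i)‖ :=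
    hv.inv (L.τ i x) y (L.e i) (by rw [L.hτ i x hx]; exact hat) (by rw [L.hτ i x hx, hy]) _
  have hw := L.weight hLi hv hx hat (L.ξ i)
  have hv0 : v (L.τ i x) (L.e i) (L.ξ i) ≠ 0 := fun h => hne (by rw [h, map_zero])
  set dt := (DM (fun z => β ((L.e i).symm z)) (L.e i x) (L.ξ i)).det with hdt
  rw [h1, norm_smul, norm_pow] at h2
  have h3 : 0 < ‖v (L.τ i x) (L.e i) (L.ξ i)‖ := norm_pos_iff.2 hv0
  rw [h2] at h3 hw
  have h4 : ‖dt‖ ^ m ≠ 0 := fun h => by rw [h, zero_mul] at h3; exact lt_irrefl _ h3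
  have h5 : ‖γ (β x)‖ ≠ 0 := fun h => by rw [h, mul_zero] at h3; exact lt_irrefl _ h3
  have h6 : ‖L.ℓ i (v (L.τ i x) (L.e i) (L.ξ i))‖ ≠ 0 := norm_ne_zero_iff.2 hne
  unfold Pf rat
  rw [hsymm, ← hdt, norm_pow, norm_div, norm_mul, norm_pow]
  have h7 : (‖L.ℓ i (v (L.τ i x) (L.e i) (L.ξ i))‖ ^ 2) ^ j =
      Real.exp (-K.φ i (L.e i x)) * ((‖dt‖ ^ m * ‖γ (β x)‖) ^ 2) ^ j := by
    rw [← pow_mul, ← pow_mul]
    exact hw
  rw [← pow_mul, mul_comm j 2, pow_mul, div_pow, div_pow, h7]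
  have h8 : Real.exp (-K.φ i (L.e i x)) ≠ 0 := (Real.exp_pos _).ne'
  rw [mul_pow ‖ℓ₀ (γ (β x))‖, div_pow, mul_pow (‖dt‖ ^ m), mul_pow, mul_pow]
  have h9 : ((‖dt‖ ^ m) ^ 2) ^ j ≠ 0 := pow_ne_zero _ (pow_ne_zero _ h4)
  have h10 : (‖γ (β x)‖ ^ 2) ^ j ≠ 0 := pow_ne_zero _ (pow_ne_zero _ h5)
  field_simp

variable [IsManifold 𝓘(ℂ, Cm n) ω X]

omit [MeasurableSpace X] in
theorem dF_chart (hL : Lf m p v γ b₀ r N β x₀) {x : X} (hxN : x ∈ N) {e e' : Chart n X}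
    (he : At e x) (he' : At e' x) : dF (fun z => β (e.symm z)) (e x) =
      (dF (fun z => β (e'.symm z)) (e' x)).compContinuousLinearMap (tau e e' x) := by
  have hb := hL.an x hxN e' he'
  have h1 : (fun z => β (e.symm z)) =ᶠ[𝓝 (e x)]
      fun z => (fun z => β (e'.symm z)) (e' (e.symm z)) := by
    have h3 : ∀ᶠ z in 𝓝 (e x), e.symm z ∈ e'.source := by
      refine (e.symm.continuousAt (e.map_source he.2)).eventually_mem ?_
      rw [e.left_inv he.2]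
      exact e'.open_source.mem_nhds he'.2
    filter_upwards [h3] with z hz
    show β (e.symm z) = β (e'.symm (e' (e.symm z)))
    rw [e'.left_inv hz]
  have h2 : e' (e.symm (e x)) = e' x := by rw [e.left_inv he.2]
  have h3 := fderiv_comp (𝕜 := ℂ) (g := fun z => β (e'.symm z)) (f := fun z => e' (e.symm z)) (e x)
    (by rw [h2]; exact hb.differentiableAt) (transition_differentiableAt he he')
  rw [h2] at h3
  have h4 : fderiv ℂ (fun z => β (e.symm z)) (e x) =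
      (fderiv ℂ (fun z => β (e'.symm z)) (e' x)).comp (tau e e' x) := by
    rw [h1.fderiv_eq]
    exact h3
  unfold dF
  rw [h4]
  rfl

theorem mF_eq (hh : KOff (Zs p v) h) (hL : Lf m p v γ b₀ r N β x₀) {x : X} (hxN : x ∈ N)
    {e : Chart n X} (he : At e x) : mF h β x =
      (hn (h e (e x)) (dF (fun z => β (e.symm z)) (e x)) (dF (fun z => β (e.symm z)) (e x))).re := by
  have hc : At (chartAt (Cm n) x) x := ⟨chart_mem_atlas _ _, mem_chart_source _ _⟩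
  unfold mF
  rw [dF_chart hL hxN he hc, hn_chart H752.k1Stmt hh he hc (hL.off x hxN)]

end

end Vale.Agent.P284.H752.K8
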